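import Vale.Agent.P004N.H3.Lib2
import Vale.Agent.P004N.H65.Frk
import Vale.Agent.P004N.H3.Cusp
import Vale.Agent.P004N.H169.Ell

/-!
# P004: analytic ranks of the quadratic twists of every weight two eigenform with integer
coefficients
-/

namespace Vale.Agent.Results.P004.EigenformTwists

open Filter Topology UpperHalfPlane

/-- the cusp forms of weight two on `Γ₀(N)` (Mathlib) -/
abbrev S (N : ℕ) : Type :=
  CuspForm ((CongruenceSubgroup.Gamma0 N).map (Matrix.SpecialLinearGroup.mapGL ℝ)) 2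

/-- `f = ∑ c(n) q^n`, `q = e^{2 π i z}` -/
def QExp {N : ℕ} (f : S N) (c : ℕ → ℂ) : Prop :=
  ∀ z : ℍ, HasSum (fun n : ℕ => c n * Complex.exp (2 * Real.pi * Complex.I * n * z)) (f z)

/-- `f = ∑ a(n) q^n` with integers `a(n)`, `a(1) = 1`, is an eigenform of the Hecke operators `T_p`,
`p ∤ N` -/
structure IsEigenform {N : ℕ} (f : S N) (a : ℕ → ℤ) : Prop where
  level : 0 < N
  qexp : QExp f (fun n => (a n : ℂ))
  one : a 1 = 1
  hecke : ∀ p : ℕ, p.Prime → ¬ p ∣ N → ∀ n : ℕ,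
    a (p * n) + (if p ∣ n then (p : ℤ) * a (n / p) else 0) = a p * a n

/-- `g = ∑ b(n) q^n` is a newform of level `M` with real coefficients: a normalised eigenform of
all Hecke operators and of the Fricke involution `z ↦ -1/(Mz)`, with `b(p) = ± 1` if `p` divides
`M` exactly once and `b(p) = 0` if `p² ∣ M` -/
structure IsNewform {M : ℕ} (g : S M) (b : ℕ → ℝ) : Prop where
  level : 0 < M
  qexp : QExp g (fun n => (b n : ℂ))
  zero : b 0 = 0
  one : b 1 = 1
  hecke : ∀ p : ℕ, p.Prime → ¬ p ∣ M → ∀ n : ℕ,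
    b (p * n) + (if p ∣ n then (p : ℝ) * b (n / p) else 0) = b p * b n
  bad : ∀ p : ℕ, p.Prime → p ∣ M → ∀ n : ℕ, b (p * n) = b p * b n
  bad1 : ∀ p : ℕ, p.Prime → p ∣ M → ¬ p ^ 2 ∣ M → (b p) ^ 2 = 1
  bad2 : ∀ p : ℕ, p.Prime → p ^ 2 ∣ M → b p = 0
  fricke : ∃ ε : ℝ, (ε = 1 ∨ ε = -1) ∧ ∀ z z' : ℍ, (z' : ℂ) = -1 / ((M : ℂ) * z) →
    g z' = ε * M * (z : ℂ) ^ 2 * g z

/-- `D` is a fundamental discriminant, `D ≠ 1` -/
def IsFundDisc (D : ℤ) : Prop :=
  D ≠ 1 ∧ ((D % 4 = 1 ∧ Squarefree D) ∨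
    ∃ d : ℤ, D = 4 * d ∧ (d % 4 = 2 ∨ d % 4 = 3) ∧ Squarefree d)

open scoped Classical in
/-- the fundamental discriminants `D ≠ 1` with `|D| ≤ X` -/
noncomputable def Family (X : ℕ) : Finset ℤ := (Finset.Icc (-(X : ℤ)) X).filter IsFundDisc

/-- `b(p) = a(p) (D/p)` for all but finitely many primes `p` -/
def Attached (a : ℕ → ℤ) (D : ℤ) (b : ℕ → ℝ) : Prop :=
  {p : ℕ | p.Prime ∧ b p ≠ (a p : ℝ) * (jacobiSym D p : ℤ)}.Finite

/-- `L` is entire, and for `Re s > 3/2` it is the sum of the Dirichlet series `∑ b(n) n^{-s}` -/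
def IsLFun (b : ℕ → ℝ) (L : ℂ → ℂ) : Prop :=
  Differentiable ℂ L ∧ ∀ s : ℂ, 3 / 2 < s.re → LSeriesHasSum (fun n => (b n : ℂ)) s (L s)

/-- for every fundamental discriminant `D ≠ 1` there is exactly one newform `g = ∑ b(n) q^n` with
`b(p) = a(p) (D/p)` for all but finitely many primes `p`, its `L`-series has a unique entire
continuation, and `r D` is the order of vanishing of this `L`-function at `s = 1` -/
def IsRank (a : ℕ → ℤ) (r : ℤ → ℕ) : Prop :=
  ∀ D : ℤ, IsFundDisc D → ∃ (M : ℕ) (g : S M) (b : ℕ → ℝ), IsNewform g b ∧ Attached a D b ∧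
    (∀ (M' : ℕ) (g' : S M') (b' : ℕ → ℝ), IsNewform g' b' → Attached a D b' →
      M' = M ∧ b' = b) ∧
    ∃ L : ℂ → ℂ, IsLFun b L ∧ (∀ L', IsLFun b L' → L' = L) ∧ analyticOrderAt L 1 = (r D : ℕ∞)

/-- the quadratic twist `E^(D) : D y² = x³ + A x + B` of `E : y² = x³ + A x + B`, written as
`y² = x³ + A D² x + B D³` -/
def twist (A B D : ℤ) : WeierstrassCurve ℚ := ⟨0, 0, 0, A * D ^ 2, B * D ^ 3⟩

/-- `y² = x³ + A x + B` is an elliptic curve `E`, and `a_p(E) = a(p)` for all but finitely many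
primes `p` (`LFunction` is Mathlib's sequence of coefficients of the Hasse-Weil `L`-function) -/
def Matches (A B : ℤ) (a : ℕ → ℤ) : Prop :=
  4 * A ^ 3 + 27 * B ^ 2 ≠ 0 ∧ {p : ℕ | p.Prime ∧ (twist A B 1).LFunction p ≠ a p}.Finite

/-- `L` is analytic at all `s` with `Re s ≥ 1`, and for `Re s > 3/2` it is the sum of the Hasse-Weil
`L`-series of `W` -/
def IsHasseWeil (W : WeierstrassCurve ℚ) (L : ℂ → ℂ) : Prop :=
  AnalyticOnNhd ℂ L {s : ℂ | 1 ≤ s.re} ∧
    ∀ s : ℂ, 3 / 2 < s.re → LSeriesHasSum (fun n => (W.LFunction n : ℂ)) s (L s)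

/-- for every fundamental discriminant `D ≠ 1` the Hasse-Weil `L`-series of the twist `E^(D)` has a
unique analytic continuation to `Re s ≥ 1`, and `r D` is its order of vanishing at `s = 1` -/
def IsEllRank (A B : ℤ) (r : ℤ → ℕ) : Prop :=
  ∀ D : ℤ, IsFundDisc D → ∃ L : ℂ → ℂ, IsHasseWeil (twist A B D) L ∧
    (∀ L', IsHasseWeil (twist A B D) L' → ∀ s : ℂ, 1 ≤ s.re → L' s = L s) ∧
    analyticOrderAt L 1 = (r D : ℕ∞)

open scoped Classical in
/-- the number of `D` in `Family X` with the property `P` -/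
noncomputable def count (P : ℤ → Prop) (X : ℕ) : ℝ := (((Family X).filter P).card : ℝ)

open scoped Classical in
/-- the sum of `(r D)^k` over the `D` in `Family X` with the property `P` -/
noncomputable def moment (r : ℤ → ℕ) (k : ℕ) (P : ℤ → Prop) (X : ℕ) : ℝ :=
  ∑ D ∈ (Family X).filter P, (r D : ℝ) ^ k

/-- the proportion of the `D` with the property `P` tends to `1/2` -/
def Half (P : ℤ → Prop) : Prop :=
  Tendsto (fun X : ℕ => count P X / (Family X).card) atTop (𝓝 (1 / 2))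

/-- all moments of `r` are bounded -/
def Moments (r : ℤ → ℕ) : Prop := ∀ k : ℕ, ∃ C : ℝ, 0 < C ∧ ∀ X : ℕ, 3 ≤ X →
  ∑ D ∈ Family X, (r D : ℝ) ^ k ≤ C * ((Family X).card : ℝ)

/-- exponentially decreasing tails of `r` -/
def Tails (r : ℤ → ℕ) : Prop :=
  ∃ c δ C : ℝ, 0 < c ∧ 0 < δ ∧ 0 < C ∧ ∀ X : ℕ, 3 ≤ X → ∀ z : ℝ, 0 ≤ z →
    count (fun D => z ≤ (r D : ℝ)) X ≤
      C * ((Family X).card : ℝ) * Real.exp (-c * min z (Real.log X ^ δ))

/-- `r` is odd for one half of the `D` -/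
def Parity (r : ℤ → ℕ) : Prop := Half (fun D => Odd (r D))

/-- the density form of Goldfeld's conjecture -/
def DensityForm (r : ℤ → ℕ) : Prop := ∀ j : ℕ, j ≤ 1 → Half (fun D => r D = j)

/-- the mean form of Goldfeld's conjecture (`k = 1`), and its analogue for the `k`-th moment -/
def MeanForm (r : ℤ → ℕ) (k : ℕ) : Prop :=
  Tendsto (fun X : ℕ => (∑ D ∈ Family X, (r D : ℝ) ^ k) / (Family X).card) atTop (𝓝 (1 / 2))

/-- equivalence of density statements and mean value statements -/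
def Forms (r : ℤ → ℕ) (k : ℕ) : Prop :=
  (Half (fun D => r D = 0) ↔
    Tendsto (fun X => moment r k (fun D => Even (r D)) X / (Family X).card) atTop (𝓝 0)) ∧
  (Half (fun D => r D = 1) ↔
    Tendsto (fun X => moment r k (fun D => Odd (r D)) X / (Family X).card) atTop
      (𝓝 (1 / 2))) ∧
  (DensityForm r ↔ MeanForm r k)

/-- a positive proportion of the `D` has the property `P` -/
def PosProp (P : ℤ → Prop) : Prop :=
  ∃ c : ℝ, 0 < c ∧ ∃ X₀ : ℕ, ∀ X : ℕ, X₀ ≤ X → c * ((Family X).card : ℝ) ≤ count P X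

/-! ### comparison with the definitions used in the proofs -/

open P004N (NF EF IsTw)
open Vale.Agent.P004H.H871 (kr Fd kr_odd)

theorem ef_of {N : ℕ} {f : S N} {a : ℕ → ℤ} (h : IsEigenform f a) : EF N f a where
  pos := h.level
  s2 := P004N.T8.s2_of_cusp h.level f
  qe := h.qexp
  one := h.one
  te p hp hpN n := by
    have := h.hecke p hp hpN n
    show (a (p * n) : ℂ) + (if p ∣ n then (p : ℂ) * (a (n / p) : ℂ) else 0) = (a p : ℂ) * (a n : ℂ)
    by_cases hn : p ∣ n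
    · rw [if_pos hn] at this ⊢
      exact_mod_cast this
    · rw [if_neg hn] at this ⊢
      exact_mod_cast this

theorem nf_of {M : ℕ} {g : S M} {b : ℕ → ℝ} (h : IsNewform g b) : ∃ ε : ℝ, NF M g b ε := by
  obtain ⟨ε, hε, h1⟩ := h.fricke
  have hS := P004N.T8.s2_of_cusp h.level g
  exact ⟨ε, ⟨h.level, hS, h.qexp, h.zero, h.one, h.hecke, h.bad, h.bad1, h.bad2, hε,
    (P004N.alw_iff_fricke h.level hS).2 h1⟩⟩

theorem newform_of {M : ℕ} {g : ℍ → ℂ} {b : ℕ → ℝ} {ε : ℝ} (h : NF M g b ε) :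
    ∃ G : S M, (G : ℍ → ℂ) = g ∧ IsNewform G b := by
  obtain ⟨G, hG⟩ := P004N.T8.cusp_of_s2 h.pos h.s2
  subst hG
  exact ⟨G, rfl, ⟨h.pos, h.qe, h.zero, h.one, h.good, h.bad, h.bad1, h.bad2,
    ⟨ε, h.sgn, (P004N.alw_iff_fricke h.pos h.s2).1 h.al⟩⟩⟩

theorem attached_iff {a : ℕ → ℤ} {D : ℤ} (hD : Fd D) {b : ℕ → ℝ} :
    Attached a D b ↔ ∃ S : ℕ, S ≠ 0 ∧ ∀ p : ℕ, p.Prime → ¬ p ∣ S → b p = a p * kr D p := by
  classical
  have hodd : ∀ p : ℕ, p.Prime → p ≠ 2 → ((kr D p : ℤ) : ℝ) = (jacobiSym D p : ℤ) := by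
    intro p hp h2
    rw [kr_odd hD (hp.odd_of_ne_two h2)]
  constructor
  · intro h
    refine ⟨2 * ∏ p ∈ h.toFinset, p, Nat.mul_ne_zero two_ne_zero
      (Finset.prod_ne_zero_iff.2 fun p hp => ?_), fun p hp hpS => ?_⟩
    · exact (h.mem_toFinset.1 hp).1.ne_zero
    · by_contra hne
      have h2 : p ≠ 2 := by
        rintro rfl
        exact hpS (Dvd.intro _ rfl)
      rw [hodd p hp h2] at hne
      exact hpS (Dvd.dvd.mul_left (Finset.dvd_prod_of_mem _ (h.mem_toFinset.2 ⟨hp, hne⟩)) 2)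
  · rintro ⟨S, hS, h⟩
    refine Set.Finite.subset (Finset.finite_toSet (insert 2 S.primeFactors)) ?_
    rintro p ⟨hp, hne⟩
    simp only [Finset.coe_insert, Set.mem_insert_iff, Finset.mem_coe]
    by_contra h1
    obtain ⟨h2, h3⟩ := not_or.1 h1
    have hpS : ¬ p ∣ S := fun h4 => h3 (Nat.mem_primeFactors.2 ⟨hp, h4, hS⟩)
    exact hne (by rw [h p hp hpS, hodd p hp h2])

theorem isRank_of {N : ℕ} {f : ℍ → ℂ} {a : ℕ → ℤ} (hf : EF N f a) {r : ℤ → ℕ}
    (h : P004N.T8.Cont a r) : IsRank a r := by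
  intro D hD
  have hFd : Fd D := hD.2
  obtain ⟨M, g, b, ε, hT, -⟩ := P004N.exists_isTw hf hFd
  obtain ⟨L, h1, h2, h3, h4⟩ := h D hFd M g b ε hT
  obtain ⟨G, rfl, hG⟩ := newform_of hT.1
  refine ⟨M, G, b, hG, (attached_iff hFd).2 hT.2, ?_, L, ⟨h1.1, h3⟩, ?_, h4⟩
  · intro M' g' b' hg' hb'
    obtain ⟨ε', hnf⟩ := nf_of hg'
    obtain ⟨e1, -, e3, -⟩ := IsTw.unique hT ⟨hnf, (attached_iff hFd).1 hb'⟩
    exact ⟨e1.symm, e3.symm⟩
  · intro L' hL'
    refine h2 L' ⟨hL'.1, fun s hs => ?_⟩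
    have h5 := h1.2 s hs
    have hs' : 3 / 2 < s.re := by linarith
    rw [← h5]
    exact (hL'.2 s hs').LSeries_eq.symm.trans (h3 s hs').LSeries_eq

theorem isEllRank_of {N : ℕ} {f : ℍ → ℂ} {a : ℕ → ℤ} (hf : EF N f a) {r : ℤ → ℕ}
    (h : P004N.T8.Cont a r) {A B : ℤ} (hAB : Matches A B a) : IsEllRank A B r := by
  classical
  intro D hD
  have hFd : Fd D := hD.2
  obtain ⟨M, g, b, ε, hT, -⟩ := P004N.exists_isTw hf hFd
  obtain ⟨L, h1, -, -, h4⟩ := h D hFd M g b ε hT
  have hAtt : P004N.Att A B a := by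
    refine ⟨∏ p ∈ hAB.2.toFinset, p, Finset.prod_ne_zero_iff.2 fun p hp => ?_,
      fun p hp hpS => ?_⟩
    · exact (hAB.2.mem_toFinset.1 hp).1.ne_zero
    · by_contra hne
      exact hpS (Finset.dvd_prod_of_mem _ (hAB.2.mem_toFinset.2 ⟨hp, hne⟩))
  obtain ⟨L', h5, h6⟩ := P004N.ell_isEll hf hFd hT h1 hAB.1 hAtt
  refine ⟨L', h5, fun L'' h7 s hs => ?_, by rw [h6, h4]⟩
  have h8 : P004N.IsEll (P004N.tw A B D) L'' := h7
  exact (P004N.IsCont.unique h8.isCont h5.isCont).1 s hs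

theorem count_eq (P : ℤ → Prop) [DecidablePred P] (X : ℕ) :
    count P X = (((_root_.P004.Fam X).filter P).card : ℝ) := by
  have h : @Finset.filter ℤ P (fun D => Classical.propDecidable (P D)) (Family X) =
      (_root_.P004.Fam X).filter P :=
    Finset.filter_congr_decidable _ _ _
  exact congrArg (fun s : Finset ℤ => (s.card : ℝ)) h

theorem moment_eq (r : ℤ → ℕ) (k : ℕ) (P : ℤ → Prop) [DecidablePred P] (X : ℕ) :
    moment r k P X = ∑ D ∈ (_root_.P004.Fam X).filter P, (r D : ℝ) ^ k := by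
  have h : @Finset.filter ℤ P (fun D => Classical.propDecidable (P D)) (Family X) =
      (_root_.P004.Fam X).filter P :=
    Finset.filter_congr_decidable _ _ _
  exact congrArg (fun s : Finset ℤ => ∑ D ∈ s, (r D : ℝ) ^ k) h

theorem family_eq (X : ℕ) : Family X = _root_.P004.Fam X := rfl

theorem parity_of {r : ℤ → ℕ} (h : P004N.T8.OddH r) : Parity r := by
  classical
  unfold Parity Half
  unfold P004N.T8.OddH at h
  simp only [count_eq, family_eq]
  convert h

theorem density_iff {r : ℤ → ℕ} : DensityForm r ↔ P004N.T8.Dens r := by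
  classical
  unfold DensityForm Half P004N.T8.Dens
  simp only [count_eq, family_eq]

theorem forms_of {r : ℤ → ℕ} {k : ℕ} (h : P004N.T8.Equi r k) : Forms r k := by
  classical
  obtain ⟨h1, h2, h3⟩ := h
  refine ⟨?_, ?_, density_iff.trans h3⟩
  · unfold Half
    simp only [count_eq, moment_eq, family_eq]
    convert h1
  · unfold Half
    simp only [count_eq, moment_eq, family_eq]
    convert h2

theorem tails_of {r : ℤ → ℕ} (h : P004N.T8.Tail r) : Tails r := by
  classical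
  obtain ⟨c, δ, C, hc, hδ, hC, h⟩ := h
  refine ⟨c, δ, C, hc, hδ, hC, fun X hX z hz => ?_⟩
  refine le_trans (le_of_eq ?_) (h X hX z hz)
  rw [count_eq]

theorem card_family_le (X : ℕ) : ((Family X).card : ℝ) ≤ 2 * X + 1 := by
  classical
  unfold Family
  have h := Finset.card_filter_le (Finset.Icc (-(X : ℤ)) X) IsFundDisc
  have h2 : (Finset.Icc (-(X : ℤ)) X).card = 2 * X + 1 := by
    rw [Int.card_Icc]; omega
  rw [h2] at h
  exact_mod_cast h

theorem posProp_of {P : ℤ → Prop} (h : P004N.T8.Pos P) : PosProp P := by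
  classical
  obtain ⟨c, hc, X₀, h⟩ := h
  refine ⟨c / 3, by positivity, max X₀ 1, fun X hX => ?_⟩
  have h6 : c * (X : ℝ) ≤ count P X := by
    refine (h X ((le_max_left _ _).trans hX)).trans (le_of_eq ?_)
    rw [count_eq]
  have h7 := card_family_le X
  have h8 : (1 : ℝ) ≤ X := by exact_mod_cast (le_max_right _ _).trans hX
  refine le_trans ?_ h6
  have h9 : c / 3 * ((Family X).card : ℝ) ≤ c / 3 * (2 * X + 1) :=
    mul_le_mul_of_nonneg_left h7 (by positivity)
  nlinarith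

/-! ### the theorem -/

/-- **Analytic ranks of the quadratic twists of every weight two eigenform with integer
coefficients** (unconditional). Let `f = ∑ a(n) q^n` be a normalised eigenform of weight two on
`Γ₀(N)`, any `N`, with integer coefficients. For every fundamental discriminant `D ≠ 1` there is
exactly one newform attached to `f ⊗ χ_D`; its `L`-function is entire; let `r D` be its order of
vanishing at `s = 1`. If `E : y² = x³ + A x + B` is an elliptic curve over `ℚ` with `a_p(E) = a(p)` for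
all but finitely many `p`, then `r D` is the analytic rank of the twist `E^(D)`, defined by Mathlib's
Hasse-Weil `L`-series. Moreover

1. the number of `D ∈ Family X` with `r D ≥ z` is
   `≤ C #Family X exp (-c min (z, (log X)^δ))` for some `c, δ, C > 0`;
2. all moments of `r` are bounded;
3. `r` is odd for one half of the `D`;
4. for every `k ≥ 1` : the density of `r D = 0` is `1/2` iff the normalised sum of `(r D)^k` over
   the `D` with even `r D` tends to `0`, the density of `r D = 1` is `1/2` iff the normalised sum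
   over the `D` with odd `r D` tends to `1/2`, and both densities are `1/2` iff the mean of
   `(r D)^k` tends to `1/2`;
5. `r D` is exactly one for a positive proportion of the `D`;
6. `r D` is zero or two for a positive proportion of the `D`. -/
theorem result : ∀ (N : ℕ) (f : S N) (a : ℕ → ℤ), IsEigenform f a →
    ∃ r : ℤ → ℕ, IsRank a r ∧ (∀ A B : ℤ, Matches A B a → IsEllRank A B r) ∧
      Tails r ∧ Moments r ∧ Parity r ∧ (∀ k : ℕ, 1 ≤ k → Forms r k) ∧
      PosProp (fun D => r D = 1) ∧ PosProp (fun D => r D = 0 ∨ r D = 2) := by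
  intro N f a hf
  have h := ef_of hf
  obtain ⟨r, h1, h2, h3, h4, h5, h6, h7⟩ := P004N.T8.main_all h
  exact ⟨r, isRank_of h h1, fun A B hAB => isEllRank_of h h1 hAB, tails_of h3, h2, parity_of h4, fun k hk => forms_of (h5 k hk),
    posProp_of h6, posProp_of h7⟩

end Vale.Agent.Results.P004.EigenformTwists
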